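import Vale.Agent.P156.G.GBfin
import Vale.Agent.P156.R2.Spec

/-!
Interface of block G (P156): the inverse points, the off-diagonal samples on the graph side and on
the GOE side, and the propositions that the final comparison uses.
-/

open MeasureTheory ProbabilityTheory Filter Topology Finset

namespace Vale.Agent.P156.G

/-- inverse points of a regular graph: `u_i = 1 / (Im m_d(E) * x_i)`, `x_i = n (λ_i - E)` -/
noncomputable def uG (d : ℕ) (E : ℝ) {n : ℕ} (G : SimpleGraph (Fin n)) (i : Fin n) : ℝ :=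
  ((mdE d E).im * xx E G i)⁻¹

/-- samples of the resolvent at the centres: `G_{v_x v_y}(E) / Im m_d(E)` -/
noncomputable def CG (d : ℕ) (E : ℝ) {n : ℕ} (N M : ℕ)
    (ω : SimpleGraph (Fin n) × StarPos n d (N * (M + 1))) (x y : Fin N × Fin (M + 1)) : ℝ :=
  (centreMat ω (E : ℂ) (finProdFinEquiv x) (finProdFinEquiv y)).re / (mdE d E).im

/-- inverse points of a GOE matrix: `u_i = 1 / (n μ_i)` -/
noncomputable def uO {n : ℕ} (w : Upper n → ℝ) (i : Fin n) : ℝ :=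
  ((n : ℝ) * (goeMat_isHermitian w).eigenvalues i)⁻¹

/-- samples of the inverse of a GOE matrix on Gaussian vectors: `g_xᵀ M⁻¹ g_y / n` -/
noncomputable def CO {n : ℕ} (N M : ℕ)
    (ω : (Upper n → ℝ) × (Fin N × Fin (M + 1) → Fin n → ℝ)) (x y : Fin N × Fin (M + 1)) : ℝ :=
  (∑ a, ∑ b, ω.2 x a * ((goeMat ω.1)⁻¹ a b) * ω.2 y b) / n

/-- law of a GOE matrix and of independent standard Gaussian vectors -/
noncomputable def PO (n N M : ℕ) :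
    Measure ((Upper n → ℝ) × (Fin N × Fin (M + 1) → Fin n → ℝ)) :=
  (goeLaw n).prod (Measure.pi fun _ => Measure.pi fun _ => gaussianReal 0 1)

/-- graph side: tightness of `∑ u_i²` along good sequences -/
def GraphH1 (d : ℕ) : Prop :=
  ∀ (𝒰 : Ultrafilter ℕ) (E : ℕ → ℝ) (E₀ : ℝ), GoodSeq d 𝒰 E E₀ → ∀ ε > 0, ∃ Lam : ℝ,
    ∀ᶠ n in (𝒰 : Filter ℕ),
      prob (regularGraphs n d) (fun G => Lam < ∑ i, uG d (E n) G i ^ 2) ≤ ε

/-- graph side: the sampled cyclic averages are close to the power sums -/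
def GraphH2 (d : ℕ) : Prop :=
  ∀ (𝒰 : Ultrafilter ℕ) (E : ℕ → ℝ) (E₀ : ℝ), GoodSeq d 𝒰 E E₀ →
    ∀ m ≥ 1, ∀ M ≥ m, ∀ ε > 0, ∃ N0, ∀ N ≥ N0, ∀ᶠ n in (𝒰 : Filter ℕ),
      avg (WW n d (N * (M + 1))) (fun ω =>
        min 1 |TT N M m (CG d (E n) N M ω) - ∑ i, uG d (E n) ω.1 i ^ (m + 1)|) ≤ ε

/-- GOE side: tightness of `∑ u_i²` -/
def GoeH1 : Prop :=
  ∀ ε > 0, ∃ Lam : ℝ, ∀ᶠ n in atTop, (goeLaw n).real {w | Lam < ∑ i, uO w i ^ 2} ≤ ε

/-- GOE side: the sampled cyclic averages are close to the power sums -/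
def GoeH2 : Prop :=
  ∀ m ≥ 1, ∀ M ≥ m, ∀ ε > 0, ∃ N0, ∀ N ≥ N0, ∀ᶠ n in atTop,
    ∫ ω, min 1 |TT N M m (CO N M ω) - ∑ i, uO ω.1 i ^ (m + 1)| ∂(PO n N M) ≤ ε

/-- GOE side: almost sure invertibility -/
def GoeInv : Prop :=
  ∀ n : ℕ, 0 < n → ∀ᵐ w ∂(goeLaw n), IsUnit (goeMat w).det

/-- The laws of the samples merge along good sequences. -/
def MergeH3 (d : ℕ) : Prop :=
  ∀ (𝒰 : Ultrafilter ℕ) (E : ℕ → ℝ) (E₀ : ℝ), GoodSeq d 𝒰 E E₀ → ∀ N M : ℕ,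
    ∀ F : ((Fin N × Fin (M + 1)) → (Fin N × Fin (M + 1)) → ℝ) → ℝ, Continuous F →
    (∃ c : ℝ, ∀ C, |F C| ≤ c) →
    (∀ C C', (∀ x y, x ≠ y → C x y = C' x y) → F C = F C') →
    Tendsto (fun n => avg (WW n d (N * (M + 1))) (fun ω => F (CG d (E n) N M ω)) -
      ∫ ω, F (CO N M ω) ∂(PO n N M)) 𝒰 (𝓝 0)

/-- Marginal of the sample space `WW` on the graph. -/
def WWfst (d : ℕ) : Prop :=
  ∀ (n K : ℕ) (Φ : SimpleGraph (Fin n) → ℝ), 0 < n →
    avg (WW n d K) (fun ω => Φ ω.1) = avg (regularGraphs n d) Φ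

end Vale.Agent.P156.G
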