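import Vale.Agent.P156.G.Glue
import Vale.Agent.P156.H737.GraphFinal
import Vale.Agent.P156.H737.GoeFinal
import Vale.Agent.P156.H144.Merge

/-!
Block G (P156), final form: the point process at a good sequence of energies is asymptotically
that of the GOE as soon as the scattering matrices converge to the COE on both sides.
-/

namespace Vale.Agent.P156.G

theorem specGoodLimit_of {d : ℕ} (hd : 3 ≤ d) (hS : SpecS d) (hO : H144.GoeLimit) :
    SpecGoodLimit d :=
  specGoodLimit hd (H737.graphH1 d) (H737.graphH2 d) H737.goeH1_done H737.goeH2_done
    H737.goeInv_done (H144.mergeH3 hS hO)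

end Vale.Agent.P156.G
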