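import Vale.Agent.P156.F.Diag
import Vale.Agent.P156.R2.Spec

/-!
The circular orthogonal ensemble as a functional: existence and uniqueness (P156).
-/

open MeasureTheory Topology Matrix

namespace Vale.Agent.P156.G

noncomputable section

variable {ι : Type} [Fintype ι] [DecidableEq ι]

theorem compactSymU : CompactSpace (SymU ι) := isCompact_iff_compactSpace.mp F.isCompact_symU

theorem compactUG : CompactSpace (unitaryGroup ι ℂ) :=
  isCompact_iff_compactSpace.mp F.isCompact_unitaryGroup

/-- `U Uᵀ` as a symmetric unitary matrix -/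
def sqU (U : unitaryGroup ι ℂ) : SymU ι :=
  ⟨U.1 * U.1ᵀ, mul_mem U.2 (F.transpose_mem_unitaryGroup U.2), by
    rw [transpose_mul, transpose_transpose]⟩

theorem continuous_sqU : Continuous (sqU (ι := ι)) :=
  Continuous.subtype_mk (continuous_subtype_val.mul continuous_subtype_val.matrix_transpose) _

/-- `U S Uᵀ` -/
def conjU (U : unitaryGroup ι ℂ) (S : SymU ι) : SymU ι :=
  ⟨U.1 * S.1 * U.1ᵀ, F.conj_mem_symU U.2 S.2⟩

theorem continuous_conjU : Continuous (fun p : unitaryGroup ι ℂ × SymU ι => conjU p.1 p.2) := by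
  refine Continuous.subtype_mk ?_ _
  have h1 : Continuous (fun p : unitaryGroup ι ℂ × SymU ι => p.1.1) :=
    continuous_subtype_val.comp continuous_fst
  have h2 : Continuous (fun p : unitaryGroup ι ℂ × SymU ι => p.2.1) :=
    continuous_subtype_val.comp continuous_snd
  exact (h1.mul h2).mul h1.matrix_transpose

theorem conjU_sqU (U V : unitaryGroup ι ℂ) : conjU U (sqU V) = sqU (U * V) := by
  apply Subtype.ext
  change U.1 * (V.1 * V.1ᵀ) * U.1ᵀ = (U.1 * V.1) * (U.1 * V.1)ᵀ
  rw [transpose_mul]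
  simp only [Matrix.mul_assoc]

theorem toSymU_of_mem {S : Matrix ι ι ℂ} (h : S ∈ unitaryGroup ι ℂ ∧ Sᵀ = S) :
    toSymU S = ⟨S, h⟩ := by
  unfold toSymU
  rw [dif_pos h]

theorem conjSymU_eq (U : Matrix ι ι ℂ) (hU : U ∈ unitaryGroup ι ℂ) (S : SymU ι) :
    conjSymU U S = conjU ⟨U, hU⟩ S := by
  unfold conjSymU
  exact toSymU_of_mem (F.conj_mem_symU hU S.2)

/-- Every symmetric unitary matrix is of the form `V Vᵀ`. -/
theorem exists_sqU (S : SymU ι) : ∃ V : unitaryGroup ι ℂ, sqU V = S := by
  obtain ⟨O, δ, _, hδ, hS⟩ := F.exists_real_diag (S := S.1) S.2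
  have hex : ∀ i, ∃ e : ℂ, e * e = δ i ∧ ‖e‖ = 1 := by
    intro i
    obtain ⟨e, he⟩ := IsAlgClosed.exists_pow_nat_eq (δ i) (n := 2) (by norm_num)
    refine ⟨e, by rw [← he]; ring, ?_⟩
    have h1 : ‖e‖ ^ 2 = 1 := by rw [← norm_pow, he, hδ i]
    nlinarith [norm_nonneg e]
  choose e he1 he2 using hex
  have hD : diagonal e ∈ unitaryGroup ι ℂ := by
    rw [mem_unitaryGroup_iff, star_eq_conjTranspose, diagonal_conjTranspose,
      diagonal_mul_diagonal, ← diagonal_one]
    congr 1
    ext i
    rw [Pi.star_apply, ← starRingEnd_apply, Complex.mul_conj, Complex.normSq_eq_norm_sq, he2 i]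
    simp
  refine ⟨⟨O.1 * diagonal e, mul_mem O.2 hD⟩, ?_⟩
  apply Subtype.ext
  change (O.1 * diagonal e) * (O.1 * diagonal e)ᵀ = S.1
  rw [hS, transpose_mul, diagonal_transpose]
  have : diagonal e * diagonal e = diagonal δ := by
    rw [diagonal_mul_diagonal]
    congr 1
    ext i
    exact he1 i
  rw [← this]
  simp only [Matrix.mul_assoc]

/-- normalised Haar measure of the unitary group -/
def haarU (ι : Type) [Fintype ι] [DecidableEq ι] : Measure (unitaryGroup ι ℂ) :=
  have : CompactSpace (unitaryGroup ι ℂ) := compactUG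
  Measure.haarMeasure (⊤ : TopologicalSpace.PositiveCompacts (unitaryGroup ι ℂ))

theorem haarU_isHaar : (haarU ι).IsHaarMeasure := by
  unfold haarU
  infer_instance

theorem haarU_prob : IsProbabilityMeasure (haarU ι) := by
  have : CompactSpace (unitaryGroup ι ℂ) := compactUG
  constructor
  have h := Measure.haarMeasure_self
    (K₀ := (⊤ : TopologicalSpace.PositiveCompacts (unitaryGroup ι ℂ)))
  exact h

theorem integral_haarU_mul_left {E : Type*} [NormedAddCommGroup E] [NormedSpace ℝ E]
    (f : unitaryGroup ι ℂ → E) (V : unitaryGroup ι ℂ) :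
    ∫ U, f (V * U) ∂(haarU ι) = ∫ U, f U ∂(haarU ι) := by
  have := haarU_isHaar (ι := ι)
  exact integral_mul_left_eq_self f V

theorem integral_haarU_mul_right {E : Type*} [NormedAddCommGroup E] [NormedSpace ℝ E]
    (f : unitaryGroup ι ℂ → E) (V : unitaryGroup ι ℂ) :
    ∫ U, f (U * V) ∂(haarU ι) = ∫ U, f U ∂(haarU ι) := by
  have h1 := haarU_isHaar (ι := ι)
  have h2 := haarU_prob (ι := ι)
  have : CompactSpace (unitaryGroup ι ℂ) := compactUG
  have h3 : IsProbabilityMeasure (Measure.map (· * V) (haarU ι)) :=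
    Measure.isProbabilityMeasure_map (measurable_mul_const V).aemeasurable
  have h4 : (Measure.map (· * V) (haarU ι)).IsHaarMeasure :=
    Measure.isHaarMeasure_map_mul_right (haarU ι) V
  have h5 : Measure.map (· * V) (haarU ι) = haarU ι :=
    Measure.isHaarMeasure_eq_of_isProbabilityMeasure _ _
  have h6 : MeasurableEmbedding fun x : unitaryGroup ι ℂ => x * V :=
    (MeasurableEquiv.mulRight V).measurableEmbedding
  rw [← h6.integral_map, h5]

theorem integrable_haarU {E : Type*} [NormedAddCommGroup E] [NormedSpace ℝ E]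
    {f : unitaryGroup ι ℂ → E} (hf : Continuous f) : Integrable f (haarU ι) := by
  have h1 := haarU_isHaar (ι := ι)
  have : CompactSpace (unitaryGroup ι ℂ) := compactUG
  exact hf.integrable_of_hasCompactSupport (HasCompactSupport.of_compactSpace f)

/-- the COE functional -/
def coe (F : C(SymU ι, ℝ)) : ℝ := ∫ U, F (sqU U) ∂(haarU ι)

theorem isCOE_coe : IsCOE (coe (ι := ι)) := by
  have h2 := haarU_prob (ι := ι)
  refine ⟨?_, ?_, ?_, ?_, ?_⟩
  · simp [coe]
  · intro F G
    exact integral_add (integrable_haarU (F.continuous.comp continuous_sqU))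
      (integrable_haarU (G.continuous.comp continuous_sqU))
  · intro r F
    simp only [coe, ContinuousMap.coe_smul, Pi.smul_apply, smul_eq_mul]
    exact integral_const_mul _ _
  · intro F hF
    exact integral_nonneg fun U => hF (sqU U)
  · intro V hV F F' hFF'
    unfold coe
    have h : ∀ U : unitaryGroup ι ℂ, F' (sqU U) = F (sqU (⟨V, hV⟩ * U)) := by
      intro U
      rw [hFF', conjSymU_eq V hV, conjU_sqU]
    simp only [h]
    exact integral_haarU_mul_left (fun U => F (sqU U)) ⟨V, hV⟩

/-- **Existence of the circular orthogonal ensemble.** -/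
theorem exists_isCOE (ι : Type) [Fintype ι] [DecidableEq ι] :
    ∃ c : C(SymU ι, ℝ) → ℝ, IsCOE c := ⟨coe, isCOE_coe⟩

/-! ### Uniqueness -/

/-- a COE functional as a continuous linear map -/
theorem exists_clm [CompactSpace (SymU ι)] {c : C(SymU ι, ℝ) → ℝ} (hc : IsCOE c) :
    ∃ L : C(SymU ι, ℝ) →L[ℝ] ℝ, ∀ F, L F = c F := by
  obtain ⟨h1, hadd, hsmul, hpos, _⟩ := hc
  let L0 : C(SymU ι, ℝ) →ₗ[ℝ] ℝ :=
    { toFun := c
      map_add' := hadd
      map_smul' := hsmul }
  have hmono : ∀ F G : C(SymU ι, ℝ), F ≤ G → L0 F ≤ L0 G := by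
    intro F G h
    have h2 := hpos (G - F) (sub_nonneg.2 h)
    have h3 : L0 (G - F) = L0 G - L0 F := map_sub L0 G F
    change 0 ≤ L0 (G - F) at h2
    linarith
  have hb : ∀ F : C(SymU ι, ℝ), ‖L0 F‖ ≤ 1 * ‖F‖ := by
    intro F
    have e1 : F ≤ ‖F‖ • (1 : C(SymU ι, ℝ)) := by
      intro S
      have := (abs_le.1 (F.norm_coe_le_norm S)).2
      simpa using this
    have e2 : (-‖F‖) • (1 : C(SymU ι, ℝ)) ≤ F := by
      intro S
      have := (abs_le.1 (F.norm_coe_le_norm S)).1
      simpa using this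
    have e3 := hmono _ _ e1
    have e4 := hmono _ _ e2
    rw [map_smul] at e3 e4
    have h1' : L0 1 = 1 := h1
    rw [h1', smul_eq_mul, mul_one] at e3 e4
    rw [Real.norm_eq_abs, one_mul]
    exact abs_le.2 ⟨e4, e3⟩
  exact ⟨L0.mkContinuous 1 hb, fun F => rfl⟩

theorem coe_unique {c : C(SymU ι, ℝ) → ℝ} (hc : IsCOE c) (F : C(SymU ι, ℝ)) : c F = coe F := by
  have inst : CompactSpace (SymU ι) := compactSymU
  have h2 := haarU_prob (ι := ι)
  obtain ⟨L, hL⟩ := exists_clm hc
  let A : C(unitaryGroup ι ℂ × SymU ι, ℝ) :=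
    ⟨fun p => F (conjU p.1 p.2), F.continuous.comp continuous_conjU⟩
  let Φ : C(unitaryGroup ι ℂ, C(SymU ι, ℝ)) := A.curry
  have hint : Integrable (fun U => Φ U) (haarU ι) := integrable_haarU Φ.continuous
  have h3 : ∀ U : unitaryGroup ι ℂ, L (Φ U) = c F := by
    intro U
    rw [hL]
    refine hc.2.2.2.2 U.1 U.2 F (Φ U) fun S => ?_
    rw [conjSymU_eq U.1 U.2]
    rfl
  have h4 : L (∫ U, Φ U ∂(haarU ι)) = c F := by
    rw [← L.integral_comp_comm hint]
    simp only [h3]
    simp
  have h5 : (∫ U, Φ U ∂(haarU ι)) = coe F • (1 : C(SymU ι, ℝ)) := by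
    ext S
    obtain ⟨V, hV⟩ := exists_sqU S
    have h6 : (∫ U, Φ U ∂(haarU ι)) S = ∫ U, Φ U S ∂(haarU ι) := by
      have := (ContinuousMap.evalCLM ℝ S).integral_comp_comm hint
      exact this.symm
    rw [h6]
    simp only [ContinuousMap.coe_smul, ContinuousMap.coe_one, Pi.smul_apply, Pi.one_apply,
      smul_eq_mul, mul_one]
    have h7 : ∀ U : unitaryGroup ι ℂ, Φ U S = F (sqU (U * V)) := by
      intro U
      change F (conjU U S) = _
      rw [← hV, conjU_sqU]
    simp only [h7]
    exact integral_haarU_mul_right (fun U => F (sqU U)) V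
  rw [← h4, h5, map_smul, hL]
  rw [hc.1, smul_eq_mul, mul_one]

/-- **Uniqueness of the circular orthogonal ensemble.** -/
theorem isCOE_unique {c c' : C(SymU ι, ℝ) → ℝ} (hc : IsCOE c) (hc' : IsCOE c') : c = c' := by
  ext F
  rw [coe_unique hc, coe_unique hc']

/-- the identification of the two types of symmetric unitary matrices -/
def ofF (S : F.SymU ι) : SymU ι := S

theorem continuous_ofF : Continuous (ofF (ι := ι)) := continuous_id

/-- An invariant probability measure on the symmetric unitary matrices gives the COE. -/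
theorem isCOE_of_measure (μ : Measure (F.SymU ι)) [IsProbabilityMeasure μ]
    (h : ∀ U : unitaryGroup ι ℂ, F.InvBy μ U) :
    IsCOE (fun G : C(SymU ι, ℝ) => ∫ S, G (ofF S) ∂μ) := by
  have hint : ∀ G : C(SymU ι, ℝ), Integrable (fun S => G (ofF S)) μ := by
    intro G
    have hG : Continuous (fun S => G (ofF (ι := ι) S)) := G.continuous.comp continuous_ofF
    exact hG.integrable_of_hasCompactSupport (HasCompactSupport.of_compactSpace _)
  refine ⟨?_, ?_, ?_, ?_, ?_⟩
  · change ∫ _, (1 : ℝ) ∂μ = 1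
    simp
  · intro G G'
    exact integral_add (hint G) (hint G')
  · intro r G
    exact integral_const_mul _ _
  · intro G hG
    exact integral_nonneg fun S => hG _
  · intro V hV G G' hGG'
    have hG : Continuous (fun S => G (ofF (ι := ι) S)) := G.continuous.comp continuous_ofF
    have := (h ⟨V, hV⟩).integral hG
    refine Eq.trans ?_ this
    refine integral_congr_ae (Filter.Eventually.of_forall fun S => ?_)
    change G' (ofF S) = G (conjU ⟨V, hV⟩ (ofF S))
    rw [hGG', conjSymU_eq V hV]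

/-- An invariant probability measure integrates continuous functions like the COE. -/
theorem integral_eq_of_isCOE (μ : Measure (F.SymU ι)) [IsProbabilityMeasure μ]
    (h : ∀ U : unitaryGroup ι ℂ, F.InvBy μ U) {c : C(SymU ι, ℝ) → ℝ} (hc : IsCOE c)
    (G : C(SymU ι, ℝ)) : ∫ S, G (ofF S) ∂μ = c G :=
  congrFun (isCOE_unique (isCOE_of_measure μ h) hc) G

end

end Vale.Agent.P156.G
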