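import Mathlib

/-!
Block G-B of P156: Laplace functionals of the inverse points `u_i` are approximated by bounded
continuous functions of off-diagonal samples, through power sums (cyclic products) and the
Weierstrass theorem; comparison theorem for two families of models.
-/

open MeasureTheory Filter Topology Finset

namespace Vale.Agent.P156.G

/-- cyclic product of length `m + 1` -/
def cyc {ι : Type*} (m : ℕ) (C : ι → ι → ℝ) (e : Fin (m + 1) → ι) : ℝ :=
  (∏ i : Fin m, C (e i.castSucc) (e i.succ)) * C (e (Fin.last m)) (e 0)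

/-- average of the cyclic products of length `m + 1` over `N` blocks of size `M + 1` -/
noncomputable def TT (N M m : ℕ) (C : (Fin N × Fin (M + 1)) → (Fin N × Fin (M + 1)) → ℝ) : ℝ :=
  (∑ b : Fin N, cyc m C (fun j => (b, Fin.ofNat (M + 1) j.1))) / N

/-- the linear combination of the `TT` with the coefficients of `p` -/
noncomputable def lin (p : Polynomial ℝ) (N M : ℕ)
    (C : (Fin N × Fin (M + 1)) → (Fin N × Fin (M + 1)) → ℝ) : ℝ :=
  ∑ j ∈ range (p.natDegree + 1), p.coeff j * TT N M (j + 1) C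

/-- the bounded continuous functional of the samples -/
noncomputable def Psi (p : Polynomial ℝ) (N M : ℕ)
    (C : (Fin N × Fin (M + 1)) → (Fin N × Fin (M + 1)) → ℝ) : ℝ :=
  Real.exp (-max 0 (lin p N M C))

theorem continuous_cyc {ι : Type*} (m : ℕ) (e : Fin (m + 1) → ι) :
    Continuous (fun C : ι → ι → ℝ => cyc m C e) := by
  unfold cyc
  refine Continuous.mul (continuous_finsetProd _ fun i _ => ?_) ?_
  · exact (continuous_apply (e i.succ)).comp (continuous_apply (e i.castSucc))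
  · exact (continuous_apply (e 0)).comp (continuous_apply (e (Fin.last m)))

theorem continuous_TT (N M m : ℕ) : Continuous (TT N M m) := by
  unfold TT
  exact (continuous_finsetSum _ fun b _ => continuous_cyc m _).div_const _

theorem continuous_lin (p : Polynomial ℝ) (N M : ℕ) : Continuous (lin p N M) := by
  unfold lin
  exact continuous_finsetSum _ fun j _ => (continuous_TT N M (j + 1)).const_mul _

theorem continuous_Psi (p : Polynomial ℝ) (N M : ℕ) : Continuous (Psi p N M) := by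
  unfold Psi
  exact Real.continuous_exp.comp ((continuous_const.max (continuous_lin p N M)).neg)

theorem Psi_pos (p : Polynomial ℝ) (N M : ℕ) (C) : 0 < Psi p N M C := Real.exp_pos _

theorem Psi_le_one (p : Polynomial ℝ) (N M : ℕ) (C) : Psi p N M C ≤ 1 := by
  unfold Psi
  rw [Real.exp_le_one_iff]
  simp

theorem abs_Psi_le (p : Polynomial ℝ) (N M : ℕ) (C) : |Psi p N M C| ≤ 1 := by
  rw [abs_of_pos (Psi_pos p N M C)]; exact Psi_le_one p N M C

theorem Psi_congr {p : Polynomial ℝ} {N M : ℕ} (hM : p.natDegree + 1 ≤ M)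
    {C C' : (Fin N × Fin (M + 1)) → (Fin N × Fin (M + 1)) → ℝ}
    (h : ∀ x y, x ≠ y → C x y = C' x y) : Psi p N M C = Psi p N M C' := by
  have key : ∀ j ∈ range (p.natDegree + 1), TT N M (j + 1) C = TT N M (j + 1) C' := by
    intro j hj
    rw [Finset.mem_range] at hj
    have hne : ∀ (b : Fin N) (s t : ℕ), s < M + 1 → t < M + 1 → s ≠ t →
        ((b, Fin.ofNat (M + 1) s) : Fin N × Fin (M + 1)) ≠ (b, Fin.ofNat (M + 1) t) := by
      intro b s t hs ht hst he
      have := congrArg (fun x : Fin N × Fin (M + 1) => x.2.1) he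
      simp only [Fin.val_ofNat, Nat.mod_eq_of_lt hs, Nat.mod_eq_of_lt ht] at this
      exact hst this
    unfold TT
    congr 1
    refine Finset.sum_congr rfl fun b _ => ?_
    unfold cyc
    congr 1
    · refine Finset.prod_congr rfl fun i _ => h _ _ (hne b _ _ ?_ ?_ ?_)
      · have := i.2; simp only [Fin.val_castSucc]; omega
      · have := i.2; simp only [Fin.val_succ]; omega
      · simp only [Fin.val_castSucc, Fin.val_succ]; omega
    · refine h _ _ (hne b _ _ ?_ ?_ ?_)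
      · simp only [Fin.val_last]; omega
      · simp
      · simp
  unfold Psi lin
  rw [Finset.sum_congr rfl fun j hj => by rw [key j hj]]

/-! ### Elementary inequalities -/

theorem abs_exp_neg_sub_le {a b : ℝ} (ha : 0 ≤ a) (hb : 0 ≤ b) :
    |Real.exp (-a) - Real.exp (-b)| ≤ |a - b| := by
  wlog h : a ≤ b generalizing a b with H
  · rw [abs_sub_comm, abs_sub_comm a b]; exact H hb ha (le_of_not_ge h)
  have h1 : Real.exp (-b) ≤ Real.exp (-a) := Real.exp_le_exp.2 (by linarith)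
  rw [abs_of_nonneg (by linarith), abs_of_nonpos (by linarith)]
  have h2 : Real.exp (-b) = Real.exp (-a) * Real.exp (a - b) := by
    rw [← Real.exp_add]; congr 1; ring
  have h3 : a - b + 1 ≤ Real.exp (a - b) := Real.add_one_le_exp _
  have h4 : Real.exp (-a) ≤ 1 := Real.exp_le_one_iff.2 (by linarith)
  have h5 : 0 < Real.exp (-a) := Real.exp_pos _
  nlinarith

theorem abs_exp_neg_sub_le_one {a b : ℝ} (ha : 0 ≤ a) (hb : 0 ≤ b) :
    |Real.exp (-a) - Real.exp (-b)| ≤ 1 := by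
  have h1 : Real.exp (-a) ≤ 1 := Real.exp_le_one_iff.2 (by linarith)
  have h2 : Real.exp (-b) ≤ 1 := Real.exp_le_one_iff.2 (by linarith)
  have h3 := Real.exp_pos (-a)
  have h4 := Real.exp_pos (-b)
  rw [abs_le]; constructor <;> linarith

theorem min_one_add_le {x y : ℝ} (hx : 0 ≤ x) (hy : 0 ≤ y) :
    min 1 (x + y) ≤ min 1 x + min 1 y := by
  rcases le_total 1 x with h | h
  · rw [min_eq_left h]
    have : 0 ≤ min 1 y := le_min zero_le_one hy
    linarith [min_le_left 1 (x + y)]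
  · rcases le_total 1 y with h' | h'
    · rw [min_eq_left h']
      have : 0 ≤ min 1 x := le_min zero_le_one hx
      linarith [min_le_left 1 (x + y)]
    · rw [min_eq_right h, min_eq_right h']; exact min_le_right _ _

theorem min_one_mul_le {c d : ℝ} (hc : 0 ≤ c) (hd : 0 ≤ d) :
    min 1 (c * d) ≤ (1 + c) * min 1 d := by
  rcases le_total 1 d with h | h
  · rw [min_eq_left h]; linarith [min_le_left 1 (c * d)]
  · rw [min_eq_right h]; refine le_trans (min_le_right _ _) ?_; nlinarith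

theorem min_one_sum_le {s : Finset ℕ} {c d : ℕ → ℝ} (hc : ∀ j, 0 ≤ c j) (hd : ∀ j, 0 ≤ d j) :
    min 1 (∑ j ∈ s, c j * d j) ≤ ∑ j ∈ s, (1 + c j) * min 1 (d j) := by
  classical
  induction s using Finset.induction_on with
  | empty => simp
  | insert a s ha ih =>
    rw [Finset.sum_insert ha, Finset.sum_insert ha]
    refine le_trans (min_one_add_le (mul_nonneg (hc a) (hd a))
      (Finset.sum_nonneg fun j _ => mul_nonneg (hc j) (hd j))) ?_
    exact add_le_add (min_one_mul_le (hc a) (hd a)) ih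

/-- pointwise comparison -/
theorem pointwise_le {ι : Type*} [Fintype ι] (g : ℝ → ℝ) (hg : ∀ t, 0 ≤ g t) {Lam η : ℝ}
    (hLam : 0 ≤ Lam) (hη : 0 ≤ η) (p : Polynomial ℝ)
    (hp : ∀ t : ℝ, t ^ 2 ≤ Lam → |g t - t ^ 2 * p.eval t| ≤ η * t ^ 2)
    (u : ι → ℝ) (T : ℕ → ℝ) :
    |Real.exp (-∑ i, g (u i)) -
      Real.exp (-max 0 (∑ j ∈ range (p.natDegree + 1), p.coeff j * T j))| ≤
    η * Lam + (if Lam < ∑ i, u i ^ 2 then 1 else 0) +
      ∑ j ∈ range (p.natDegree + 1), (1 + |p.coeff j|) * min 1 |T j - ∑ i, u i ^ (j + 2)| := by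
  set A := ∑ i, g (u i) with hA
  set B := ∑ j ∈ range (p.natDegree + 1), p.coeff j * T j with hB
  have hA0 : 0 ≤ A := Finset.sum_nonneg fun i _ => hg _
  have hs : 0 ≤ ∑ j ∈ range (p.natDegree + 1),
      (1 + |p.coeff j|) * min 1 |T j - ∑ i, u i ^ (j + 2)| :=
    Finset.sum_nonneg fun j _ => mul_nonneg (by positivity) (le_min zero_le_one (abs_nonneg _))
  have hηL : 0 ≤ η * Lam := mul_nonneg hη hLam
  have h1 : |Real.exp (-A) - Real.exp (-max 0 B)| ≤ 1 :=
    abs_exp_neg_sub_le_one hA0 (le_max_left _ _)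
  split_ifs with h
  · linarith
  · push Not at h
    have h2 : |Real.exp (-A) - Real.exp (-max 0 B)| ≤ |A - B| := by
      refine le_trans (abs_exp_neg_sub_le hA0 (le_max_left _ _)) ?_
      rcases le_total 0 B with hB0 | hB0
      · rw [max_eq_right hB0]
      · rw [max_eq_left hB0, sub_zero, abs_of_nonneg hA0, abs_of_nonneg (by linarith)]; linarith
    have h3 : |A - B| ≤ η * Lam +
        ∑ j ∈ range (p.natDegree + 1), |p.coeff j| * |T j - ∑ i, u i ^ (j + 2)| := by
      have e1 : ∑ i, u i ^ 2 * p.eval (u i) =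
          ∑ j ∈ range (p.natDegree + 1), p.coeff j * ∑ i, u i ^ (j + 2) := by
        simp only [Finset.mul_sum]
        rw [Finset.sum_comm]
        refine Finset.sum_congr rfl fun i _ => ?_
        rw [Polynomial.eval_eq_sum_range, Finset.mul_sum]
        refine Finset.sum_congr rfl fun j _ => ?_
        ring
      have e2 : A - B = (A - ∑ i, u i ^ 2 * p.eval (u i)) +
          (∑ j ∈ range (p.natDegree + 1), p.coeff j * ((∑ i, u i ^ (j + 2)) - T j)) := by
        rw [e1]; simp only [mul_sub, Finset.sum_sub_distrib]; rw [hB]; ring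
      rw [e2]
      refine le_trans (abs_add_le _ _) (add_le_add ?_ ?_)
      · rw [hA, ← Finset.sum_sub_distrib]
        refine le_trans (Finset.abs_sum_le_sum_abs _ _) ?_
        have : ∀ i ∈ (univ : Finset ι), |g (u i) - u i ^ 2 * p.eval (u i)| ≤ η * u i ^ 2 := by
          intro i _
          refine hp _ (le_trans ?_ h)
          exact Finset.single_le_sum (f := fun i => u i ^ 2) (fun i _ => sq_nonneg _)
            (Finset.mem_univ i)
        refine le_trans (Finset.sum_le_sum this) ?_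
        rw [← Finset.mul_sum]
        exact mul_le_mul_of_nonneg_left h hη
      · refine le_trans (Finset.abs_sum_le_sum_abs _ _) (Finset.sum_le_sum fun j _ => ?_)
        rw [abs_mul, abs_sub_comm]
    have h4 : |Real.exp (-A) - Real.exp (-max 0 B)| ≤ min 1 (η * Lam +
        ∑ j ∈ range (p.natDegree + 1), |p.coeff j| * |T j - ∑ i, u i ^ (j + 2)|) :=
      le_min h1 (le_trans h2 h3)
    refine le_trans h4 (le_trans (min_one_add_le hηL (Finset.sum_nonneg fun j _ =>
      mul_nonneg (abs_nonneg _) (abs_nonneg _))) ?_)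
    rw [add_zero]
    exact add_le_add (min_le_right _ _) (min_one_sum_le (fun j => abs_nonneg _)
      (fun j => abs_nonneg _))

/-! ### Weierstrass -/

theorem exists_poly (g : ℝ → ℝ) (hg : Continuous g) (h0 : ∀ᶠ t in 𝓝 (0 : ℝ), g t = 0)
    (Lam : ℝ) {η : ℝ} (hη : 0 < η) :
    ∃ p : Polynomial ℝ, ∀ t : ℝ, t ^ 2 ≤ Lam → |g t - t ^ 2 * p.eval t| ≤ η * t ^ 2 := by
  have hc : Continuous (fun t : ℝ => g t / t ^ 2) := by
    rw [continuous_iff_continuousAt]
    intro t
    by_cases ht : t = 0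
    · subst ht
      have : (fun t : ℝ => g t / t ^ 2) =ᶠ[𝓝 0] fun _ => 0 := by
        filter_upwards [h0] with t ht
        rw [ht, zero_div]
      exact continuousAt_const.congr this.symm
    · exact hg.continuousAt.div (continuous_pow 2).continuousAt (pow_ne_zero 2 ht)
  obtain ⟨p, hp⟩ := exists_polynomial_near_of_continuousOn (-Real.sqrt Lam) (Real.sqrt Lam)
    (fun t : ℝ => g t / t ^ 2) hc.continuousOn η hη
  refine ⟨p, fun t ht => ?_⟩
  have hmem : t ∈ Set.Icc (-Real.sqrt Lam) (Real.sqrt Lam) := by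
    rw [Set.mem_Icc, ← abs_le]
    exact Real.abs_le_sqrt ht
  have h1 := (hp t hmem).le
  by_cases ht0 : t = 0
  · subst ht0
    simp [h0.self_of_nhds]
  · have ht2 : 0 < t ^ 2 := by positivity
    have : g t - t ^ 2 * p.eval t = -(t ^ 2 * (p.eval t - g t / t ^ 2)) := by
      field_simp
      ring
    rw [this, abs_neg, abs_mul, abs_of_pos ht2, mul_comm η]
    exact mul_le_mul_of_nonneg_left h1 ht2.le

/-- Power sums determine measurability of `∑ g (u_i)`. -/
theorem measurable_sum_g {Ω : Type*} [MeasurableSpace Ω] {ι : Type*} [Fintype ι]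
    (g : ℝ → ℝ) (hg : Continuous g) (h0 : ∀ᶠ t in 𝓝 (0 : ℝ), g t = 0)
    (u : Ω → ι → ℝ) (hu : ∀ k, 2 ≤ k → Measurable (fun ω => ∑ i, u ω i ^ k)) :
    Measurable (fun ω => ∑ i, g (u ω i)) := by
  have hex : ∀ n : ℕ, ∃ p : Polynomial ℝ, ∀ t : ℝ, t ^ 2 ≤ (n : ℝ) →
      |g t - t ^ 2 * p.eval t| ≤ (1 / ((n : ℝ) + 1)) * t ^ 2 := fun n =>
    exists_poly g hg h0 n (by positivity)
  choose p hp using hex
  refine measurable_of_tendsto_metrizable
    (f := fun n ω => ∑ j ∈ range ((p n).natDegree + 1), (p n).coeff j * ∑ i, u ω i ^ (j + 2))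
    (fun n => ?_) ?_
  · exact Finset.measurable_sum _ fun j _ => (hu (j + 2) (by omega)).const_mul _
  · rw [tendsto_pi_nhds]
    intro ω
    have e1 : ∀ n, ∑ j ∈ range ((p n).natDegree + 1), (p n).coeff j * ∑ i, u ω i ^ (j + 2) =
        ∑ i, u ω i ^ 2 * (p n).eval (u ω i) := by
      intro n
      simp only [Finset.mul_sum]
      rw [Finset.sum_comm]
      refine Finset.sum_congr rfl fun i _ => ?_
      rw [Polynomial.eval_eq_sum_range, Finset.mul_sum]
      refine Finset.sum_congr rfl fun j _ => ?_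
      ring
    simp only [e1]
    rw [tendsto_iff_norm_sub_tendsto_zero]
    set S := ∑ i, u ω i ^ 2 with hS
    obtain ⟨n0, hn0⟩ := exists_nat_ge S
    have hlim : Tendsto (fun n : ℕ => (1 / ((n : ℝ) + 1)) * S) atTop (𝓝 0) := by
      have := (tendsto_one_div_add_atTop_nhds_zero_nat (𝕜 := ℝ)).mul_const S
      simpa using this
    refine squeeze_zero' (Eventually.of_forall fun n => norm_nonneg _) ?_ hlim
    filter_upwards [eventually_ge_atTop n0] with n hn
    rw [Real.norm_eq_abs, abs_sub_comm, ← Finset.sum_sub_distrib]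
    refine le_trans (Finset.abs_sum_le_sum_abs _ _) ?_
    rw [hS, Finset.mul_sum]
    refine Finset.sum_le_sum fun i _ => hp n _ ?_
    have h1 : u ω i ^ 2 ≤ S := Finset.single_le_sum (f := fun i => u ω i ^ 2)
      (fun i _ => sq_nonneg _) (Finset.mem_univ i)
    have h2 : (n0 : ℝ) ≤ n := by exact_mod_cast hn
    linarith

/-! ### Models along a filter -/

/-- `L a` is approximated by the expectations `Q N M a (Psi p N M)`, uniformly with respect to the
quality of the polynomial approximation `p` of `g`. -/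
def Approx {α : Type*} (l : Filter α) (g : ℝ → ℝ) (L : α → ℝ)
    (Q : ∀ N M : ℕ, α → (((Fin N × Fin (M + 1)) → (Fin N × Fin (M + 1)) → ℝ) → ℝ) → ℝ) : Prop :=
  ∀ ε > 0, ∃ Lam0 : ℝ, 0 ≤ Lam0 ∧ ∀ Lam ≥ Lam0, ∀ η ≥ 0, ∀ p : Polynomial ℝ,
    (∀ t : ℝ, t ^ 2 ≤ Lam → |g t - t ^ 2 * p.eval t| ≤ η * t ^ 2) →
    ∀ M ≥ p.natDegree + 1, ∃ N0, ∀ N ≥ N0, ∀ᶠ a in l,
      |L a - Q N M a (Psi p N M)| ≤ η * Lam + ε

theorem integral_bound {Ω : Type*} [MeasurableSpace Ω] (P : Measure Ω) [IsProbabilityMeasure P]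
    {ι : Type*} [Fintype ι] (g : ℝ → ℝ) (hgc : Continuous g) (h0 : ∀ᶠ t in 𝓝 (0 : ℝ), g t = 0)
    (hg : ∀ t, 0 ≤ g t) (N M : ℕ)
    (u : Ω → ι → ℝ) (hu : ∀ k, 2 ≤ k → Measurable (fun ω => ∑ i, u ω i ^ k))
    (C : Ω → (Fin N × Fin (M + 1)) → (Fin N × Fin (M + 1)) → ℝ) (hC : Measurable C)
    {Lam η : ℝ} (hLam : 0 ≤ Lam) (hη : 0 ≤ η) (p : Polynomial ℝ)
    (hp : ∀ t : ℝ, t ^ 2 ≤ Lam → |g t - t ^ 2 * p.eval t| ≤ η * t ^ 2) :
    |(∫ ω, Real.exp (-∑ i, g (u ω i)) ∂P) - ∫ ω, Psi p N M (C ω) ∂P| ≤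
      η * Lam + P.real {ω | Lam < ∑ i, u ω i ^ 2} +
      ∑ j ∈ range (p.natDegree + 1), (1 + |p.coeff j|) *
        ∫ ω, min 1 |TT N M (j + 1) (C ω) - ∑ i, u ω i ^ (j + 2)| ∂P := by
  have mS : MeasurableSet {ω | Lam < ∑ i, u ω i ^ 2} :=
    measurableSet_lt measurable_const (hu 2 le_rfl)
  have mE : Measurable (fun ω => Real.exp (-∑ i, g (u ω i))) :=
    Real.measurable_exp.comp (measurable_sum_g g hgc h0 u hu).neg
  have mP : Measurable (fun ω => Psi p N M (C ω)) := (continuous_Psi p N M).measurable.comp hC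
  have mT : ∀ j, Measurable (fun ω => min 1 |TT N M (j + 1) (C ω) - ∑ i, u ω i ^ (j + 2)|) :=
    fun j => measurable_const.min (((continuous_TT N M (j + 1)).measurable.comp hC).sub
      (hu (j + 2) (by omega))).abs
  have iE : Integrable (fun ω => Real.exp (-∑ i, g (u ω i))) P := by
    refine Integrable.of_bound mE.aestronglyMeasurable 1 (Eventually.of_forall fun ω => ?_)
    rw [Real.norm_eq_abs, abs_of_pos (Real.exp_pos _), Real.exp_le_one_iff]
    have := Finset.sum_nonneg (s := (univ : Finset ι)) (fun i _ => hg (u ω i))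
    linarith
  have iP : Integrable (fun ω => Psi p N M (C ω)) P := by
    refine Integrable.of_bound mP.aestronglyMeasurable 1 (Eventually.of_forall fun ω => ?_)
    rw [Real.norm_eq_abs]; exact abs_Psi_le _ _ _ _
  have iT : ∀ j, Integrable (fun ω => min 1 |TT N M (j + 1) (C ω) - ∑ i, u ω i ^ (j + 2)|) P := by
    intro j
    refine Integrable.of_bound (mT j).aestronglyMeasurable 1 (Eventually.of_forall fun ω => ?_)
    rw [Real.norm_eq_abs, abs_of_nonneg (le_min zero_le_one (abs_nonneg _))]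
    exact min_le_left _ _
  have iS : Integrable (fun ω => if Lam < ∑ i, u ω i ^ 2 then (1 : ℝ) else 0) P := by
    have : (fun ω => if Lam < ∑ i, u ω i ^ 2 then (1 : ℝ) else 0) =
        Set.indicator {ω | Lam < ∑ i, u ω i ^ 2} (fun _ => (1 : ℝ)) := by
      ext ω; simp [Set.indicator_apply]
    rw [this]
    exact (integrable_const 1).indicator mS
  have vS : ∫ ω, (if Lam < ∑ i, u ω i ^ 2 then (1 : ℝ) else 0) ∂P =
      P.real {ω | Lam < ∑ i, u ω i ^ 2} := by
    have : (fun ω => if Lam < ∑ i, u ω i ^ 2 then (1 : ℝ) else 0) =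
        Set.indicator {ω | Lam < ∑ i, u ω i ^ 2} (fun _ => (1 : ℝ)) := by
      ext ω; simp [Set.indicator_apply]
    rw [this, integral_indicator_const _ mS]
    simp
  rw [← integral_sub iE iP]
  refine le_trans (abs_integral_le_integral_abs) ?_
  have iA : Integrable (fun ω => η * Lam + (if Lam < ∑ i, u ω i ^ 2 then (1 : ℝ) else 0)) P :=
    (integrable_const _).add iS
  have iB : Integrable (fun ω => ∑ j ∈ range (p.natDegree + 1), (1 + |p.coeff j|) *
        min 1 |TT N M (j + 1) (C ω) - ∑ i, u ω i ^ (j + 2)|) P :=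
    integrable_finsetSum _ fun j _ => (iT j).const_mul _
  refine le_trans (integral_mono (iE.sub iP).abs (iA.add iB) fun ω => ?_) ?_
  · exact pointwise_le g hg hLam hη p hp (u ω) (fun j => TT N M (j + 1) (C ω))
  · have e1 : ∫ ω, ((fun ω => η * Lam + (if Lam < ∑ i, u ω i ^ 2 then (1 : ℝ) else 0)) +
        fun ω => ∑ j ∈ range (p.natDegree + 1), (1 + |p.coeff j|) *
        min 1 |TT N M (j + 1) (C ω) - ∑ i, u ω i ^ (j + 2)|) ω ∂P =
        (∫ ω, (η * Lam + (if Lam < ∑ i, u ω i ^ 2 then (1 : ℝ) else 0)) ∂P) +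
        ∫ ω, (∑ j ∈ range (p.natDegree + 1), (1 + |p.coeff j|) *
        min 1 |TT N M (j + 1) (C ω) - ∑ i, u ω i ^ (j + 2)|) ∂P := integral_add iA iB
    rw [e1, integral_add (integrable_const _) iS,
      integral_finsetSum _ fun j _ => (iT j).const_mul _, vS]
    simp only [integral_const_mul, integral_const, probReal_univ, one_smul]
    exact le_rfl

/-- Lemma A: tightness of `∑ u_i²` and convergence of the sampled power sums give `Approx`. -/
theorem approx_of_measure {α : Type*} {l : Filter α} (g : ℝ → ℝ) (hgc : Continuous g)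
    (h0 : ∀ᶠ t in 𝓝 (0 : ℝ), g t = 0) (hg : ∀ t, 0 ≤ g t) (L : α → ℝ)
    (Q : ∀ N M : ℕ, α → (((Fin N × Fin (M + 1)) → (Fin N × Fin (M + 1)) → ℝ) → ℝ) → ℝ)
    (Ω : ℕ → ℕ → α → Type*) [∀ N M a, MeasurableSpace (Ω N M a)]
    (P : ∀ N M a, Measure (Ω N M a)) [∀ N M a, IsProbabilityMeasure (P N M a)]
    (ι : α → Type*) [∀ a, Fintype (ι a)]
    (u : ∀ N M a, Ω N M a → ι a → ℝ)
    (hu : ∀ N M a k, 2 ≤ k → Measurable (fun ω => ∑ i, u N M a ω i ^ k))
    (C : ∀ N M a, Ω N M a → (Fin N × Fin (M + 1)) → (Fin N × Fin (M + 1)) → ℝ)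
    (hC : ∀ N M a, Measurable (C N M a))
    (hL : ∀ N M, ∀ᶠ a in l, L a = ∫ ω, Real.exp (-∑ i, g (u N M a ω i)) ∂(P N M a))
    (hQ : ∀ N M p, ∀ᶠ a in l, Q N M a (Psi p N M) = ∫ ω, Psi p N M (C N M a ω) ∂(P N M a))
    (H1 : ∀ ε > 0, ∃ Lam : ℝ, ∀ N M, ∀ᶠ a in l,
      (P N M a).real {ω | Lam < ∑ i, u N M a ω i ^ 2} ≤ ε)
    (H2 : ∀ m ≥ 1, ∀ M ≥ m, ∀ ε > 0, ∃ N0, ∀ N ≥ N0, ∀ᶠ a in l,
      ∫ ω, min 1 |TT N M m (C N M a ω) - ∑ i, u N M a ω i ^ (m + 1)| ∂(P N M a) ≤ ε) :
    Approx l g L Q := by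
  intro ε hε
  obtain ⟨Lam0, hLam0⟩ := H1 (ε / 2) (by positivity)
  refine ⟨max 0 Lam0, le_max_left _ _, fun Lam hLam η hη p hp M hM => ?_⟩
  have hLamn : 0 ≤ Lam := le_trans (le_max_left _ _) hLam
  have hLam' : Lam0 ≤ Lam := le_trans (le_max_right _ _) hLam
  have hex : ∀ j ∈ range (p.natDegree + 1), ∃ N0, ∀ N ≥ N0, ∀ᶠ a in l,
      ∫ ω, min 1 |TT N M (j + 1) (C N M a ω) - ∑ i, u N M a ω i ^ (j + 2)| ∂(P N M a) ≤
        ε / (2 * (p.natDegree + 1) * (1 + |p.coeff j|)) := by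
    intro j hj
    rw [Finset.mem_range] at hj
    exact H2 (j + 1) (by omega) M (by omega) _ (by positivity)
  choose! N0 hN0 using hex
  refine ⟨(range (p.natDegree + 1)).sup N0, fun N hN => ?_⟩
  have hall : ∀ᶠ a in l, ∀ j ∈ range (p.natDegree + 1),
      ∫ ω, min 1 |TT N M (j + 1) (C N M a ω) - ∑ i, u N M a ω i ^ (j + 2)| ∂(P N M a) ≤
        ε / (2 * (p.natDegree + 1) * (1 + |p.coeff j|)) := by
    rw [Filter.eventually_all_finset]
    intro j hj
    exact hN0 j hj N (le_trans (Finset.le_sup hj) hN)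
  filter_upwards [hall, hL N M, hQ N M p, hLam0 N M] with a ha hLa hQa hPa
  rw [hLa, hQa]
  refine le_trans (integral_bound (P N M a) g hgc h0 hg N M (u N M a) (hu N M a) (C N M a)
    (hC N M a) hLamn hη p hp) ?_
  have h1 : (P N M a).real {ω | Lam < ∑ i, u N M a ω i ^ 2} ≤ ε / 2 := by
    refine le_trans (measureReal_mono (fun ω hω => ?_)) hPa
    simp only [Set.mem_ofPred_eq] at hω ⊢
    linarith
  have h2 : ∑ j ∈ range (p.natDegree + 1), (1 + |p.coeff j|) *
      ∫ ω, min 1 |TT N M (j + 1) (C N M a ω) - ∑ i, u N M a ω i ^ (j + 2)| ∂(P N M a) ≤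
      ε / 2 := by
    have : ∀ j ∈ range (p.natDegree + 1), (1 + |p.coeff j|) *
        ∫ ω, min 1 |TT N M (j + 1) (C N M a ω) - ∑ i, u N M a ω i ^ (j + 2)| ∂(P N M a) ≤
        ε / (2 * (p.natDegree + 1)) := by
      intro j hj
      have hpos : 0 < 1 + |p.coeff j| := by positivity
      refine le_trans (mul_le_mul_of_nonneg_left (ha j hj) hpos.le) (le_of_eq ?_)
      field_simp
    refine le_trans (Finset.sum_le_sum this) (le_of_eq ?_)
    rw [Finset.sum_const, Finset.card_range, nsmul_eq_mul]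
    push_cast
    field_simp
  linarith

/-- Lemma B: two approximated families whose sample laws merge have merging Laplace
functionals. -/
theorem compare {α : Type*} {l : Filter α} (g : ℝ → ℝ) (hgc : Continuous g)
    (h0 : ∀ᶠ t in 𝓝 (0 : ℝ), g t = 0) (L₁ L₂ : α → ℝ)
    (Q₁ Q₂ : ∀ N M : ℕ, α → (((Fin N × Fin (M + 1)) → (Fin N × Fin (M + 1)) → ℝ) → ℝ) → ℝ)
    (h₁ : Approx l g L₁ Q₁) (h₂ : Approx l g L₂ Q₂)
    (H3 : ∀ N M p, p.natDegree + 1 ≤ M →
      Tendsto (fun a => Q₁ N M a (Psi p N M) - Q₂ N M a (Psi p N M)) l (𝓝 0)) :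
    Tendsto (fun a => L₁ a - L₂ a) l (𝓝 0) := by
  rw [Metric.tendsto_nhds]
  intro ε hε
  obtain ⟨A1, hA1, h₁⟩ := h₁ (ε / 8) (by positivity)
  obtain ⟨A2, hA2, h₂⟩ := h₂ (ε / 8) (by positivity)
  set Lam := max A1 A2 with hLam
  have hLam0 : 0 ≤ Lam := le_trans hA1 (le_max_left _ _)
  set η := ε / (8 * (Lam + 1)) with hη
  have hηpos : 0 < η := by positivity
  obtain ⟨p, hp⟩ := exists_poly g hgc h0 Lam hηpos
  obtain ⟨N1, hN1⟩ := h₁ Lam (le_max_left _ _) η hηpos.le p hp (p.natDegree + 1) le_rfl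
  obtain ⟨N2, hN2⟩ := h₂ Lam (le_max_right _ _) η hηpos.le p hp (p.natDegree + 1) le_rfl
  have hηL : η * Lam ≤ ε / 8 := by
    rw [hη, div_mul_eq_mul_div, div_le_div_iff₀ (by positivity) (by norm_num)]
    nlinarith
  have e1 := hN1 (max N1 N2) (le_max_left _ _)
  have e2 := hN2 (max N1 N2) (le_max_right _ _)
  have e3 := (Metric.tendsto_nhds.1 (H3 (max N1 N2) (p.natDegree + 1) p le_rfl)) (ε / 8) (by positivity)
  filter_upwards [e1, e2, e3] with a b1 b2 b3
  rw [Real.dist_eq, sub_zero] at b3 ⊢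
  rw [abs_lt] at b3 ⊢
  rw [abs_le] at b1 b2
  constructor <;> linarith [b1.1, b1.2, b2.1, b2.2, b3.1, b3.2]

end Vale.Agent.P156.G
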