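import Vale.Agent.P156.G.GB
import Vale.Agent.P156.R2.Defs

/-!
Block G-B, finite version: `approx_of_avg` is `approx_of_measure` for uniform averages over
finite sets (graph side).
-/

open MeasureTheory Filter Topology Finset

namespace Vale.Agent.P156.G

open Classical in
/-- uniform probability on a finite set (a point mass if the set is empty) -/
noncomputable def unifM {Ω : Type*} [MeasurableSpace Ω] [Nonempty Ω] (s : Finset Ω) : Measure Ω :=
  if h : s.Nonempty then (PMF.uniformOfFinset s h).toMeasure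
  else Measure.dirac (Classical.arbitrary Ω)

instance {Ω : Type*} [MeasurableSpace Ω] [Nonempty Ω] (s : Finset Ω) :
    IsProbabilityMeasure (unifM s) := by
  unfold unifM
  split_ifs <;> infer_instance

theorem integral_unifM {Ω : Type*} [MeasurableSpace Ω] [MeasurableSingletonClass Ω] [Fintype Ω]
    [Nonempty Ω] (s : Finset Ω) (hs : s.Nonempty) (f : Ω → ℝ) :
    ∫ ω, f ω ∂(unifM s) = avg s f := by
  classical
  unfold unifM avg
  rw [dif_pos hs, PMF.integral_eq_sum]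
  have h1 : ∀ ω, ((PMF.uniformOfFinset s hs) ω).toReal • f ω =
      if ω ∈ s then f ω / (s.card : ℝ) else 0 := by
    intro ω
    rw [PMF.uniformOfFinset_apply]
    split_ifs with h
    · simp [ENNReal.toReal_inv, div_eq_inv_mul]
    · simp
  simp only [h1]
  rw [Finset.sum_ite_mem, Finset.univ_inter, Finset.sum_div]

theorem measureReal_unifM {Ω : Type*} [MeasurableSpace Ω] [MeasurableSingletonClass Ω]
    [Fintype Ω] [Nonempty Ω] (s : Finset Ω) (hs : s.Nonempty) (p : Ω → Prop) :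
    (unifM s).real {ω | p ω} = prob s p := by
  classical
  have h := integral_unifM s hs (fun ω => if p ω then (1 : ℝ) else 0)
  have h2 : (fun ω => if p ω then (1 : ℝ) else 0) =
      Set.indicator {ω | p ω} (fun _ => (1 : ℝ)) := by
    ext ω; simp [Set.indicator_apply]
  have hm : MeasurableSet {ω | p ω} := (Set.toFinite _).measurableSet
  have h3 : ∫ ω, (if p ω then (1 : ℝ) else 0) ∂(unifM s) = (unifM s).real {ω | p ω} := by
    rw [h2, integral_indicator_const _ hm]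
    simp
  rw [← h3, h]
  rfl

/-- Lemma A for uniform averages over finite sets, nonempty sample spaces. -/
theorem approx_of_avg_aux {α : Type*} {l : Filter α} (g : ℝ → ℝ) (hgc : Continuous g)
    (h0 : ∀ᶠ t in 𝓝 (0 : ℝ), g t = 0) (hg : ∀ t, 0 ≤ g t) (L : α → ℝ)
    (Ω : ℕ → ℕ → α → Type*) [∀ N M a, Fintype (Ω N M a)] [∀ N M a, Nonempty (Ω N M a)]
    (s : ∀ N M a, Finset (Ω N M a)) (hs : ∀ N M, ∀ᶠ a in l, (s N M a).Nonempty)
    (ι : α → Type*) [∀ a, Fintype (ι a)]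
    (u : ∀ N M a, Ω N M a → ι a → ℝ)
    (C : ∀ N M a, Ω N M a → (Fin N × Fin (M + 1)) → (Fin N × Fin (M + 1)) → ℝ)
    (hL : ∀ N M, ∀ᶠ a in l, L a = avg (s N M a) (fun ω => Real.exp (-∑ i, g (u N M a ω i))))
    (H1 : ∀ ε > 0, ∃ Lam : ℝ, ∀ N M, ∀ᶠ a in l,
      prob (s N M a) (fun ω => Lam < ∑ i, u N M a ω i ^ 2) ≤ ε)
    (H2 : ∀ m ≥ 1, ∀ M ≥ m, ∀ ε > 0, ∃ N0, ∀ N ≥ N0, ∀ᶠ a in l,
      avg (s N M a) (fun ω => min 1 |TT N M m (C N M a ω) - ∑ i, u N M a ω i ^ (m + 1)|) ≤ ε) :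
    Approx l g L (fun N M a F => avg (s N M a) (fun ω => F (C N M a ω))) := by
  let _ : ∀ N M a, MeasurableSpace (Ω N M a) := fun _ _ _ => ⊤
  have _ : ∀ N M a, MeasurableSingletonClass (Ω N M a) := fun _ _ _ => ⟨fun _ => trivial⟩
  refine approx_of_measure g hgc h0 hg L _ Ω (fun N M a => unifM (s N M a)) ι u
    (fun N M a k _ => measurable_from_top) C (fun N M a => measurable_from_top)
    (fun N M => ?_) (fun N M p => ?_) (fun ε hε => ?_) (fun m hm M hM ε hε => ?_)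
  · filter_upwards [hs N M, hL N M] with a h1 h2
    rw [integral_unifM _ h1, h2]
  · filter_upwards [hs N M] with a h1
    rw [integral_unifM _ h1]
  · obtain ⟨Lam, hLam⟩ := H1 ε hε
    refine ⟨Lam, fun N M => ?_⟩
    filter_upwards [hs N M, hLam N M] with a h1 h2
    rw [measureReal_unifM _ h1 (fun ω => Lam < ∑ i, u N M a ω i ^ 2)]
    exact h2
  · obtain ⟨N0, hN0⟩ := H2 m hm M hM ε hε
    refine ⟨N0, fun N hN => ?_⟩
    filter_upwards [hs N M, hN0 N hN] with a h1 h2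
    rw [integral_unifM _ h1]
    exact h2

theorem avg_map_some {Ω : Type*} (s : Finset Ω) (Φ : Option Ω → ℝ) :
    avg (s.map Function.Embedding.some) Φ = avg s (fun ω => Φ (some ω)) := by
  classical
  unfold avg
  rw [Finset.sum_map, Finset.card_map]
  rfl

/-- Lemma A for uniform averages over finite sets. -/
theorem approx_of_avg {α : Type*} {l : Filter α} (g : ℝ → ℝ) (hgc : Continuous g)
    (h0 : ∀ᶠ t in 𝓝 (0 : ℝ), g t = 0) (hg : ∀ t, 0 ≤ g t) (L : α → ℝ)
    (Ω : ℕ → ℕ → α → Type*) [∀ N M a, Fintype (Ω N M a)]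
    (s : ∀ N M a, Finset (Ω N M a)) (hs : ∀ N M, ∀ᶠ a in l, (s N M a).Nonempty)
    (ι : α → Type*) [∀ a, Fintype (ι a)]
    (u : ∀ N M a, Ω N M a → ι a → ℝ)
    (C : ∀ N M a, Ω N M a → (Fin N × Fin (M + 1)) → (Fin N × Fin (M + 1)) → ℝ)
    (hL : ∀ N M, ∀ᶠ a in l, L a = avg (s N M a) (fun ω => Real.exp (-∑ i, g (u N M a ω i))))
    (H1 : ∀ ε > 0, ∃ Lam : ℝ, ∀ N M, ∀ᶠ a in l,
      prob (s N M a) (fun ω => Lam < ∑ i, u N M a ω i ^ 2) ≤ ε)
    (H2 : ∀ m ≥ 1, ∀ M ≥ m, ∀ ε > 0, ∃ N0, ∀ N ≥ N0, ∀ᶠ a in l,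
      avg (s N M a) (fun ω => min 1 |TT N M m (C N M a ω) - ∑ i, u N M a ω i ^ (m + 1)|) ≤ ε) :
    Approx l g L (fun N M a F => avg (s N M a) (fun ω => F (C N M a ω))) := by
  classical
  have key := approx_of_avg_aux (l := l) g hgc h0 hg L (fun N M a => Option (Ω N M a))
    (fun N M a => (s N M a).map Function.Embedding.some)
    (fun N M => (hs N M).mono fun a ha => ha.map) ι
    (fun N M a o => o.elim (fun _ => 0) (u N M a))
    (fun N M a o => o.elim (fun _ _ => 0) (C N M a))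
    (fun N M => ?_) (fun ε hε => ?_) (fun m hm M hM ε hε => ?_)
  · intro ε hε
    obtain ⟨Lam0, h1, h2⟩ := key ε hε
    refine ⟨Lam0, h1, fun Lam hLam η hη p hp M hM => ?_⟩
    obtain ⟨N0, hN0⟩ := h2 Lam hLam η hη p hp M hM
    refine ⟨N0, fun N hN => ?_⟩
    filter_upwards [hN0 N hN] with a ha
    rw [avg_map_some] at ha
    exact ha
  · filter_upwards [hL N M] with a ha
    rw [ha, avg_map_some]
    rfl
  · obtain ⟨Lam, h⟩ := H1 ε hε
    refine ⟨Lam, fun N M => ?_⟩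
    filter_upwards [h N M] with a ha
    unfold prob at ha ⊢
    rw [avg_map_some]
    exact ha
  · obtain ⟨N0, h⟩ := H2 m hm M hM ε hε
    refine ⟨N0, fun N hN => ?_⟩
    filter_upwards [h N hN] with a ha
    rw [avg_map_some]
    exact ha

end Vale.Agent.P156.G
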