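import Vale.Agent.P156.G.GlueAux
import Vale.Agent.P156.H737.Avg

/-!
Final comparison of block G (P156): `SpecGoodLimit` from the interface propositions.
-/

open MeasureTheory ProbabilityTheory Filter Topology Finset

namespace Vale.Agent.P156.G

/-! ### Graph side -/

theorem eig_ne_of_isUnit {n : ℕ} (G : SimpleGraph (Fin n)) (E : ℝ)
    (h : IsUnit (cutMat (adj G) ∅ (E : ℂ)).det) (i : Fin n) : eig G i ≠ E := by
  intro he
  set v := (adj_isHermitian G).eigenvectorBasis i with hv
  have h1 : (adj G).mulVec v.ofLp = eig G i • v.ofLp :=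
    (adj_isHermitian G).mulVec_eigenvectorBasis i
  have hcut : cutMat (adj G) ∅ (E : ℂ) =
      (adj G).map (fun x : ℝ => (x : ℂ)) - (E : ℂ) • (1 : Matrix (Fin n) (Fin n) ℂ) := by
    ext x y
    simp only [cutMat, Finset.notMem_empty, or_self, if_false, Matrix.sub_apply, Matrix.map_apply,
      Matrix.smul_apply, Matrix.one_apply, smul_eq_mul]
    split_ifs <;> simp
  have h2 : (cutMat (adj G) ∅ (E : ℂ)).mulVec (fun j => ((v.ofLp j : ℝ) : ℂ)) = 0 := by
    rw [hcut, Matrix.sub_mulVec]
    ext j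
    have h3 := congrFun h1 j
    simp only [Matrix.mulVec, dotProduct, Pi.smul_apply, smul_eq_mul] at h3
    simp only [Matrix.mulVec, dotProduct, Pi.sub_apply, Matrix.map_apply, Matrix.smul_apply,
      Matrix.one_apply, smul_eq_mul, Pi.zero_apply]
    have h4 : (∑ x, ((adj G j x : ℝ) : ℂ) * ((v.ofLp x : ℝ) : ℂ)) =
        (E : ℂ) * ((v.ofLp j : ℝ) : ℂ) := by
      rw [← he, ← Complex.ofReal_mul, ← h3]
      push_cast
      rfl
    rw [h4]
    simp
  have h5 := Matrix.eq_zero_of_mulVec_eq_zero (M := cutMat (adj G) ∅ (E : ℂ)) h.ne_zero h2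
  have h6 : v = 0 := by
    ext j
    have := congrFun h5 j
    simp only [Pi.zero_apply, Complex.ofReal_eq_zero] at this
    simpa using this
  have h7 : ‖v‖ = 1 := (adj_isHermitian G).eigenvectorBasis.norm_eq_one i
  rw [h6, norm_zero] at h7
  exact zero_ne_one h7

theorem integral_Xi {n d : ℕ} (hd : 3 ≤ d) (hn : 0 < n) {E : ℝ}
    (hE : |E| < 2 * Real.sqrt ((d : ℝ) - 1)) (G : SimpleGraph (Fin n))
    (hG : ∀ i, eig G i ≠ E) {f : ℝ → ℝ} (hf : Continuous f) (hcs : HasCompactSupport f) :
    ∫ x, f x ∂(Xi n d E G) = ∑ i, gf f (uG d E G i) := by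
  unfold Xi
  rw [integral_sum_dirac _ _ hf hcs]
  refine Finset.sum_congr rfl fun i _ => ?_
  have hρ := rho_pos' hd hE
  have hn' : (0 : ℝ) < n := by exact_mod_cast hn
  have hy : (n * rho d E * (eig G i - E)) ≠ 0 :=
    mul_ne_zero (by positivity) (sub_ne_zero.2 (hG i))
  have : uG d E G i = (Real.pi * (n * rho d E * (eig G i - E)))⁻¹ := by
    unfold uG xx
    rw [mdE_im hd hE]
    congr 1
    ring
  rw [this, gf_eval hy]

/-! ### GOE side -/

instance instGoe (n : ℕ) : IsProbabilityMeasure (goeLaw n) := by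
  unfold goeLaw; infer_instance

instance instPO (n N M : ℕ) : IsProbabilityMeasure (PO n N M) := by
  unfold PO; infer_instance

theorem continuous_goeMat {n : ℕ} : Continuous (fun w : Upper n → ℝ => goeMat w) := by
  refine continuous_pi fun i => continuous_pi fun j => ?_
  unfold goeMat
  split_ifs
  · exact continuous_apply _
  · exact continuous_apply _

theorem continuous_goe_det {n : ℕ} : Continuous (fun w : Upper n → ℝ => (goeMat w).det) :=
  continuous_goeMat.matrix_det

theorem measurable_goe_inv {n : ℕ} (a b : Fin n) :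
    Measurable (fun w : Upper n → ℝ => (goeMat w)⁻¹ a b) := by
  have h : (fun w : Upper n → ℝ => (goeMat w)⁻¹ a b) =
      fun w => (goeMat w).det⁻¹ * (goeMat w).adjugate a b := by
    ext w
    rw [Matrix.inv_def, Ring.inverse_eq_inv', Matrix.smul_apply, smul_eq_mul]
  rw [h]
  refine (continuous_goe_det.measurable.inv).mul ?_
  exact ((continuous_apply b).comp ((continuous_apply a).comp
    continuous_goeMat.matrix_adjugate)).measurable

theorem measurable_matrix_pow_trace {Ω : Type*} [MeasurableSpace Ω] {n : ℕ}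
    (A : Ω → Matrix (Fin n) (Fin n) ℝ) (hA : ∀ a b, Measurable (fun ω => A ω a b)) (k : ℕ) :
    Measurable (fun ω => ((A ω) ^ k).trace) := by
  have h : ∀ k a b, Measurable (fun ω => ((A ω) ^ k) a b) := by
    intro k
    induction k with
    | zero =>
      intro a b
      simp only [pow_zero]
      exact measurable_const
    | succ k ih =>
      intro a b
      simp only [pow_succ, Matrix.mul_apply]
      exact Finset.measurable_sum _ fun c _ => (ih a c).mul (hA c b)
  unfold Matrix.trace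
  exact Finset.measurable_sum _ fun a _ => h k a a

theorem trace_inv_pow {n : ℕ} {A : Matrix (Fin n) (Fin n) ℝ} (hA : A.IsHermitian)
    (hu : IsUnit A.det) (k : ℕ) :
    (A⁻¹ ^ k).trace = ∑ i, ((hA.eigenvalues i)⁻¹) ^ k := by
  set U : Matrix (Fin n) (Fin n) ℝ := (hA.eigenvectorUnitary : Matrix (Fin n) (Fin n) ℝ) with hU
  set D : Matrix (Fin n) (Fin n) ℝ := Matrix.diagonal hA.eigenvalues with hD
  set D' : Matrix (Fin n) (Fin n) ℝ := Matrix.diagonal (fun i => (hA.eigenvalues i)⁻¹) with hD'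
  have hUU : U * star U = 1 := (Matrix.mem_unitaryGroup_iff).1 hA.eigenvectorUnitary.2
  have hUU' : star U * U = 1 := (Matrix.mem_unitaryGroup_iff').1 hA.eigenvectorUnitary.2
  have hspec : A = U * D * star U := by
    have := hA.spectral_theorem
    rw [Unitary.conjStarAlgAut_apply] at this
    exact this
  have hne : ∀ i, hA.eigenvalues i ≠ 0 := by
    intro i hi
    have hdet : A.det = ∏ i, hA.eigenvalues i := by
      simpa using hA.det_eq_prod_eigenvalues
    rw [hdet, Finset.prod_eq_zero (Finset.mem_univ i) hi] at hu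
    exact not_isUnit_zero hu
  have hDD : D * D' = 1 := by
    rw [hD, hD', Matrix.diagonal_mul_diagonal, ← Matrix.diagonal_one]
    congr 1
    ext i
    exact mul_inv_cancel₀ (hne i)
  have hinv : A⁻¹ = U * D' * star U := by
    apply Matrix.inv_eq_right_inv
    rw [hspec]
    calc U * D * star U * (U * D' * star U) = U * D * (star U * U) * D' * star U := by
          simp only [Matrix.mul_assoc]
      _ = U * (D * D') * star U := by rw [hUU', Matrix.mul_one]; simp only [Matrix.mul_assoc]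
      _ = 1 := by rw [hDD, Matrix.mul_one, hUU]
  have hpow : ∀ k : ℕ, (U * D' * star U) ^ k = U * D' ^ k * star U := by
    intro k
    induction k with
    | zero => simp [hUU]
    | succ k ih =>
      rw [pow_succ, ih, pow_succ]
      calc U * D' ^ k * star U * (U * D' * star U) = U * D' ^ k * (star U * U) * D' * star U := by
            simp only [Matrix.mul_assoc]
        _ = U * (D' ^ k * D') * star U := by
            rw [hUU', Matrix.mul_one]; simp only [Matrix.mul_assoc]
  rw [hinv, hpow, Matrix.trace_mul_comm, ← Matrix.mul_assoc, hUU', Matrix.one_mul, hD',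
    Matrix.diagonal_pow, Matrix.trace_diagonal]
  rfl

open Classical in
/-- inverse points of a GOE matrix, put to `0` when the matrix is singular -/
noncomputable def uO' {n : ℕ} (w : Upper n → ℝ) (i : Fin n) : ℝ :=
  if IsUnit (goeMat w).det then uO w i else 0

theorem measurable_uO' {n : ℕ} (k : ℕ) (hk : 2 ≤ k) :
    Measurable (fun w : Upper n → ℝ => ∑ i, uO' w i ^ k) := by
  classical
  have h : (fun w : Upper n → ℝ => ∑ i, uO' w i ^ k) =
      fun w => if (goeMat w).det = 0 then 0 else (((goeMat w)⁻¹) ^ k).trace / (n : ℝ) ^ k := by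
    ext w
    split_ifs with h
    · have : ¬ IsUnit (goeMat w).det := by rw [h]; exact not_isUnit_zero
      simp only [uO', if_neg this]
      rw [zero_pow (by omega)]
      simp
    · have hu : IsUnit (goeMat w).det := isUnit_iff_ne_zero.2 h
      simp only [uO', if_pos hu, uO]
      rw [trace_inv_pow (goeMat_isHermitian w) hu, Finset.sum_div]
      refine Finset.sum_congr rfl fun i _ => ?_
      rw [mul_inv, mul_pow, inv_pow, inv_pow]
      rw [div_eq_inv_mul]
  rw [h]
  refine Measurable.ite ?_ measurable_const ?_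
  · exact measurableSet_eq_fun continuous_goe_det.measurable measurable_const
  · exact (measurable_matrix_pow_trace _ (fun a b => measurable_goe_inv a b) k).div_const _

theorem measurable_CO {n : ℕ} (N M : ℕ) : Measurable (CO (n := n) N M) := by
  refine measurable_pi_lambda _ fun x => measurable_pi_lambda _ fun y => ?_
  unfold CO
  refine Measurable.div_const (Finset.measurable_sum _ fun a _ =>
    Finset.measurable_sum _ fun b _ => ?_) _
  refine Measurable.mul (Measurable.mul ?_ ?_) ?_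
  · exact (measurable_pi_apply a).comp ((measurable_pi_apply x).comp measurable_snd)
  · exact (measurable_goe_inv a b).comp measurable_fst
  · exact (measurable_pi_apply b).comp ((measurable_pi_apply y).comp measurable_snd)

theorem goe_eig_ne {n : ℕ} (w : Upper n → ℝ) (hu : IsUnit (goeMat w).det) (i : Fin n) :
    (goeMat_isHermitian w).eigenvalues i ≠ 0 := by
  intro hi
  have hdet : (goeMat w).det = ∏ i, (goeMat_isHermitian w).eigenvalues i := by
    simpa using (goeMat_isHermitian w).det_eq_prod_eigenvalues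
  rw [hdet, Finset.prod_eq_zero (Finset.mem_univ i) hi] at hu
  exact not_isUnit_zero hu

theorem integral_XiGOE {n : ℕ} (hn : 0 < n) (w : Upper n → ℝ) (hu : IsUnit (goeMat w).det)
    {f : ℝ → ℝ} (hf : Continuous f) (hcs : HasCompactSupport f) :
    ∫ x, f x ∂(XiGOE n w) = ∑ i, gf f (uO' w i) := by
  unfold XiGOE
  rw [integral_sum_dirac _ _ hf hcs]
  refine Finset.sum_congr rfl fun i _ => ?_
  have hn' : (0 : ℝ) < n := by exact_mod_cast hn
  have hpi := Real.pi_pos
  have hy : ((n : ℝ) / Real.pi * (goeMat_isHermitian w).eigenvalues i) ≠ 0 :=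
    mul_ne_zero (by positivity) (goe_eig_ne w hu i)
  have : uO' w i = (Real.pi * ((n : ℝ) / Real.pi * (goeMat_isHermitian w).eigenvalues i))⁻¹ := by
    unfold uO' uO
    rw [if_pos hu]
    congr 1
    field_simp
  rw [this, gf_eval hy]


/-! ### Averages over the two sample spaces -/

theorem wwFst (d : ℕ) : WWfst d := fun _ K Φ hn => H737.avg_WW_graph d K hn Φ

theorem integral_PO_fst {n : ℕ} (N M : ℕ) (h : (Upper n → ℝ) → ℝ) :
    ∫ ω, h ω.1 ∂(PO n N M) = ∫ w, h w ∂(goeLaw n) := by
  unfold PO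
  rw [integral_fun_fst]
  simp

theorem ae_PO {n : ℕ} (N M : ℕ) {p : (Upper n → ℝ) → Prop} (h : ∀ᵐ w ∂(goeLaw n), p w) :
    ∀ᵐ ω ∂(PO n N M), p ω.1 := by
  unfold PO
  exact Measure.quasiMeasurePreserving_fst.ae h

theorem sum_uO'_ae (hinv : GoeInv) {n : ℕ} (hn : 0 < n) :
    ∀ᵐ w ∂(goeLaw n), ∀ k : ℕ, ∑ i, uO' w i ^ k = ∑ i, uO w i ^ k := by
  filter_upwards [hinv n hn] with w hw k
  refine Finset.sum_congr rfl fun i _ => ?_
  unfold uO'
  rw [if_pos hw]

/-- GOE side of the comparison. -/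
theorem approx_goe (H1 : GoeH1) (H2 : GoeH2) (hinv : GoeInv) {l : Filter ℕ} (hl : l ≤ atTop)
    {f : ℝ → ℝ} (hf : Continuous f) (hcs : HasCompactSupport f) (hf0 : ∀ x, 0 ≤ f x) :
    Approx l (gf f) (fun n => ∫ w, Real.exp (-∫ x, f x ∂(XiGOE n w)) ∂(goeLaw n))
      (fun N M n F => ∫ ω, F (CO N M ω) ∂(PO n N M)) := by
  have hpos : ∀ᶠ n : ℕ in l, 0 < n := hl (eventually_gt_atTop 0)
  refine approx_of_measure (gf f) (gf_continuous hf hcs) (gf_near_zero hcs) (gf_nonneg hf0) _ _
    (fun N M n => (Upper n → ℝ) × (Fin N × Fin (M + 1) → Fin n → ℝ)) (fun N M n => PO n N M)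
    (fun n => Fin n) (fun N M n ω => uO' ω.1)
    (fun N M n k hk => (measurable_uO' k hk).comp measurable_fst)
    (fun N M n => CO N M) (fun N M n => measurable_CO N M) (fun N M => ?_) (fun N M p => ?_)
    (fun ε hε => ?_) (fun m hm M hM ε hε => ?_)
  · filter_upwards [hpos] with n hn
    rw [integral_PO_fst N M (fun w => Real.exp (-∑ i, gf f (uO' w i)))]
    refine integral_congr_ae ?_
    filter_upwards [hinv n hn] with w hw
    rw [integral_XiGOE hn w hw hf hcs]
  · exact Eventually.of_forall fun n => rfl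
  · obtain ⟨Lam, hLam⟩ := H1 ε hε
    refine ⟨Lam, fun N M => ?_⟩
    filter_upwards [hpos, hl hLam] with n hn h
    refine le_trans (le_of_eq ?_) h
    have hmeas : MeasurableSet {w : Upper n → ℝ | Lam < ∑ i, uO' w i ^ 2} :=
      measurableSet_lt measurable_const (measurable_uO' 2 le_rfl)
    have e1 : (PO n N M).real {ω | Lam < ∑ i, uO' ω.1 i ^ 2} =
        (goeLaw n).real {w | Lam < ∑ i, uO' w i ^ 2} := by
      have hmp : MeasurePreserving Prod.fst (PO n N M) (goeLaw n) := by
        unfold PO; exact measurePreserving_fst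
      have := hmp.measureReal_preimage (s := {w | Lam < ∑ i, uO' w i ^ 2}) hmeas.nullMeasurableSet
      rw [← this]
      rfl
    rw [e1]
    refine measureReal_congr ?_
    filter_upwards [sum_uO'_ae hinv hn] with w hw
    have := hw 2
    simp only [eq_iff_iff]
    change (Lam < ∑ i, uO' w i ^ 2) ↔ (Lam < ∑ i, uO w i ^ 2)
    rw [this]
  · obtain ⟨N0, h0⟩ := H2 m hm M hM ε hε
    refine ⟨N0, fun N hN => ?_⟩
    filter_upwards [hpos, hl (h0 N hN)] with n hn h
    refine le_trans (le_of_eq ?_) h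
    refine integral_congr_ae ?_
    filter_upwards [ae_PO N M (sum_uO'_ae hinv hn)] with ω hω
    rw [hω (m + 1)]

theorem avg_congr_mem {Ω : Type*} (s : Finset Ω) {Φ Ψ : Ω → ℝ} (h : ∀ ω ∈ s, Φ ω = Ψ ω) :
    avg s Φ = avg s Ψ := by
  unfold avg
  rw [Finset.sum_congr rfl h]

/-- Graph side of the comparison. -/
theorem approx_graph {d : ℕ} (hd : 3 ≤ d) (H1 : GraphH1 d) (H2 : GraphH2 d)
    {𝒰 : Ultrafilter ℕ} {E : ℕ → ℝ} {E₀ : ℝ} (good : GoodSeq d 𝒰 E E₀)
    (hne : ∀ N M : ℕ, ∀ᶠ n in (𝒰 : Filter ℕ), (WW n d (N * (M + 1))).Nonempty)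
    {f : ℝ → ℝ} (hf : Continuous f) (hcs : HasCompactSupport f) (hf0 : ∀ x, 0 ≤ f x) :
    Approx (𝒰 : Filter ℕ) (gf f)
      (fun n => avg (regularGraphs n d) (fun G => Real.exp (-∫ x, f x ∂(Xi n d (E n) G))))
      (fun N M n F => avg (WW n d (N * (M + 1))) (fun ω => F (CG d (E n) N M ω))) := by
  classical
  have hpos : ∀ᶠ n : ℕ in (𝒰 : Filter ℕ), 0 < n := good.atTop (eventually_gt_atTop 0)
  have hbulk : ∀ᶠ n in (𝒰 : Filter ℕ), |E n| < 2 * Real.sqrt ((d : ℝ) - 1) :=
    good.lim.abs.eventually_lt_const good.bulk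
  refine approx_of_avg (gf f) (gf_continuous hf hcs) (gf_near_zero hcs) (gf_nonneg hf0) _
    (fun N M n => SimpleGraph (Fin n) × StarPos n d (N * (M + 1)))
    (fun N M n => WW n d (N * (M + 1))) hne (fun n => Fin n)
    (fun N M n ω => uG d (E n) ω.1) (fun N M n ω => CG d (E n) N M ω) (fun N M => ?_)
    (fun ε hε => ?_) (fun m hm M hM ε hε => ?_)
  · filter_upwards [hpos, hbulk, good.nonsing] with n hn hE hns
    rw [wwFst d n (N * (M + 1)) (fun G => Real.exp (-∑ i, gf f (uG d (E n) G i))) hn]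
    refine avg_congr_mem _ fun G hG => ?_
    rw [integral_Xi hd hn hE G (eig_ne_of_isUnit G (E n) (hns G hG ∅)) hf hcs]
  · obtain ⟨Lam, hLam⟩ := H1 𝒰 E E₀ good ε hε
    refine ⟨Lam, fun N M => ?_⟩
    filter_upwards [hpos, hLam] with n hn h
    rw [H737.prob_WW_graph d (N * (M + 1)) hn (fun G => Lam < ∑ i, uG d (E n) G i ^ 2)]
    exact h
  · obtain ⟨N0, h0⟩ := H2 𝒰 E E₀ good m hm M hM ε hε
    exact ⟨N0, fun N hN => h0 N hN⟩

theorem nonempty_of_merge {d : ℕ} (H3 : MergeH3 d)
    {𝒰 : Ultrafilter ℕ} {E : ℕ → ℝ} {E₀ : ℝ} (good : GoodSeq d 𝒰 E E₀) (N M : ℕ) :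
    ∀ᶠ n in (𝒰 : Filter ℕ), (WW n d (N * (M + 1))).Nonempty := by
  have h := H3 𝒰 E E₀ good N M (fun _ => 1) continuous_const ⟨1, fun _ => by simp⟩
    (fun _ _ _ => rfl)
  have h1 := (Metric.tendsto_nhds.1 h) 1 one_pos
  filter_upwards [h1] with n hn
  by_contra hcon
  rw [Finset.not_nonempty_iff_eq_empty] at hcon
  rw [hcon] at hn
  simp [avg] at hn

/-- **Final comparison of block G.** -/
theorem specGoodLimit {d : ℕ} (hd : 3 ≤ d) (gH1 : GraphH1 d) (gH2 : GraphH2 d) (oH1 : GoeH1)
    (oH2 : GoeH2) (oInv : GoeInv) (H3 : MergeH3 d) : SpecGoodLimit d := by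
  intro 𝒰 E E₀ good f hf hcs hf0
  refine compare (gf f) (gf_continuous hf hcs) (gf_near_zero hcs) _ _ _ _
    (approx_graph hd gH1 gH2 good (nonempty_of_merge H3 good) hf hcs hf0)
    (approx_goe oH1 oH2 oInv good.atTop hf hcs hf0) (fun N M p hM => ?_)
  exact H3 𝒰 E E₀ good N M (Psi p N M) (continuous_Psi p N M) ⟨1, abs_Psi_le p N M⟩
    (fun C C' h => Psi_congr hM h)

end Vale.Agent.P156.G
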