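import Vale.Agent.P156.G.Iface

/-!
Auxiliary facts for the final comparison of block G (P156).
-/

open MeasureTheory ProbabilityTheory Filter Topology Finset

namespace Vale.Agent.P156.G

/-! ### The test function in the inverse variable -/

/-- `g(t) = f(1 / (π t))`, `g(0) = 0` -/
noncomputable def gf (f : ℝ → ℝ) (t : ℝ) : ℝ := if t = 0 then 0 else f ((Real.pi * t)⁻¹)

theorem gf_nonneg {f : ℝ → ℝ} (hf : ∀ x, 0 ≤ f x) (t : ℝ) : 0 ≤ gf f t := by
  unfold gf; split_ifs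
  · exact le_rfl
  · exact hf _

theorem gf_near_zero {f : ℝ → ℝ} (hcs : HasCompactSupport f) :
    ∀ᶠ t in 𝓝 (0 : ℝ), gf f t = 0 := by
  obtain ⟨R, hR, h⟩ := hcs.exists_pos_le_norm
  have hpos : 0 < (Real.pi * R)⁻¹ := by positivity
  filter_upwards [Metric.ball_mem_nhds (0 : ℝ) hpos] with t ht
  unfold gf
  split_ifs with h0
  · rfl
  · apply h
    rw [Metric.mem_ball, dist_zero_right, Real.norm_eq_abs] at ht
    have ht0 : 0 < |t| := abs_pos.2 h0
    rw [Real.norm_eq_abs, abs_inv, abs_mul, abs_of_pos Real.pi_pos]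
    rw [lt_inv_comm₀ ht0 (by positivity)] at ht
    have e : (Real.pi * |t|)⁻¹ = |t|⁻¹ / Real.pi := by field_simp
    rw [e, le_div_iff₀ Real.pi_pos]
    linarith [mul_comm Real.pi R]

theorem gf_continuous {f : ℝ → ℝ} (hf : Continuous f) (hcs : HasCompactSupport f) :
    Continuous (gf f) := by
  rw [continuous_iff_continuousAt]
  intro t
  by_cases ht : t = 0
  · subst ht
    have : gf f =ᶠ[𝓝 0] fun _ => 0 := gf_near_zero hcs
    exact continuousAt_const.congr this.symm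
  · have h1 : gf f =ᶠ[𝓝 t] fun s => f ((Real.pi * s)⁻¹) := by
      filter_upwards [isOpen_ne.mem_nhds ht] with s hs
      unfold gf
      rw [if_neg hs]
    refine ContinuousAt.congr ?_ h1.symm
    refine hf.continuousAt.comp (ContinuousAt.inv₀ (continuousAt_const.mul continuousAt_id) ?_)
    exact mul_ne_zero Real.pi_ne_zero ht

theorem gf_eval {f : ℝ → ℝ} {y : ℝ} (hy : y ≠ 0) : gf f ((Real.pi * y)⁻¹) = f y := by
  unfold gf
  have h1 : (Real.pi * y)⁻¹ ≠ 0 := inv_ne_zero (mul_ne_zero Real.pi_ne_zero hy)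
  rw [if_neg h1]
  congr 1
  have := Real.pi_ne_zero
  field_simp

theorem integral_sum_dirac {ι : Type*} (s : Finset ι) (x : ι → ℝ) {f : ℝ → ℝ}
    (hf : Continuous f) (hcs : HasCompactSupport f) :
    ∫ t, f t ∂(∑ i ∈ s, Measure.dirac (x i)) = ∑ i ∈ s, f (x i) := by
  rw [integral_finsetSum_measure]
  · refine Finset.sum_congr rfl fun i _ => ?_
    exact integral_dirac f (x i)
  · intro i _
    exact hf.integrable_of_hasCompactSupport hcs

/-! ### Kesten-McKay density -/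

theorem mdE_im {d : ℕ} (hd : 3 ≤ d) {E : ℝ} (hE : |E| < 2 * Real.sqrt ((d : ℝ) - 1)) :
    (mdE d E).im = Real.pi * rho d E := by
  have hd' : (3 : ℝ) ≤ d := by exact_mod_cast hd
  set s := Real.sqrt (4 * ((d : ℝ) - 1) - E ^ 2) with hs
  have hE2 : E ^ 2 < 4 * ((d : ℝ) - 1) := by
    have h1 : |E| ^ 2 < (2 * Real.sqrt ((d : ℝ) - 1)) ^ 2 :=
      pow_lt_pow_left₀ hE (abs_nonneg _) (by norm_num)
    rw [sq_abs, mul_pow, Real.sq_sqrt (by linarith)] at h1
    linarith
  have hs2 : s ^ 2 = 4 * ((d : ℝ) - 1) - E ^ 2 := Real.sq_sqrt (by linarith)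
  have hspos : 0 < s := Real.sqrt_pos.2 (by linarith)
  have hdE : 0 < (d : ℝ) ^ 2 - E ^ 2 := by nlinarith
  have hd1 : ((d : ℂ) - 1) ≠ 0 := by
    intro h
    have := congrArg Complex.re h
    simp at this
    linarith
  have e1 : (E : ℂ) + d * mE d E =
      ((((d : ℝ) - 2) * E : ℝ) + ((d : ℝ) * s : ℝ) * Complex.I) / (2 * ((d : ℂ) - 1)) := by
    unfold mE
    rw [← hs]
    push_cast
    field_simp
    ring
  have hden : (((((d : ℝ) - 2) * E : ℝ) : ℂ) + ((d : ℝ) * s : ℝ) * Complex.I) ≠ 0 := by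
    intro h
    have := congrArg Complex.im h
    simp at this
    rcases this with h | h
    · linarith
    · exact hspos.ne' h
  have e2 : mdE d E = -(2 * ((d : ℂ) - 1)) /
      ((((d : ℝ) - 2) * E : ℝ) + ((d : ℝ) * s : ℝ) * Complex.I) := by
    unfold mdE
    rw [e1]
    field_simp
  have e3 : mdE d E = (((-(2 * ((d : ℝ) - 1)) * (((d : ℝ) - 2) * E) /
      (4 * ((d : ℝ) - 1) * ((d : ℝ) ^ 2 - E ^ 2)) : ℝ) : ℂ) +
      (((2 * ((d : ℝ) - 1)) * ((d : ℝ) * s) /
      (4 * ((d : ℝ) - 1) * ((d : ℝ) ^ 2 - E ^ 2)) : ℝ) : ℂ) * Complex.I) := by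
    rw [e2, div_eq_iff hden]
    have hne : (4 * ((d : ℝ) - 1) * ((d : ℝ) ^ 2 - E ^ 2)) ≠ 0 := by
      have : 0 < (d : ℝ) - 1 := by linarith
      positivity
    have hkey : (((d : ℝ) - 2) * E) ^ 2 + ((d : ℝ) * s) ^ 2 =
        4 * ((d : ℝ) - 1) * ((d : ℝ) ^ 2 - E ^ 2) := by
      rw [mul_pow, mul_pow, hs2]; ring
    have h1 : (d : ℝ) - 1 ≠ 0 := by linarith
    have h2 : (d : ℝ) ^ 2 - E ^ 2 ≠ 0 := hdE.ne'
    have key : ∀ a b x y c : ℝ, c ≠ 0 → x ^ 2 + y ^ 2 = 2 * a * c →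
        (-(a : ℂ)) = ((((-a * x / (2 * a * c) : ℝ) : ℂ)) + ((a * y / (2 * a * c) : ℝ) : ℂ) *
          Complex.I) * ((x : ℂ) + (y : ℂ) * Complex.I) ∨ a = 0 := by
      intro a b x y c hc hxy
      by_cases ha : a = 0
      · exact Or.inr ha
      left
      apply Complex.ext
      · simp only [Complex.add_re, Complex.mul_re, Complex.neg_re, Complex.ofReal_re,
          Complex.ofReal_im, Complex.I_re, Complex.I_im, Complex.add_im, Complex.mul_im,
          mul_zero, mul_one, zero_mul, sub_zero, add_zero, zero_add, zero_sub]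
        field_simp
        linarith
      · simp only [Complex.add_re, Complex.mul_re, Complex.neg_im, Complex.ofReal_re,
          Complex.ofReal_im, Complex.I_re, Complex.I_im, Complex.add_im, Complex.mul_im,
          mul_zero, mul_one, zero_mul, sub_zero, add_zero, zero_add, zero_sub, neg_zero]
        field_simp
        ring
    have hk := key (2 * ((d : ℝ) - 1)) 0 (((d : ℝ) - 2) * E) ((d : ℝ) * s)
      ((d : ℝ) ^ 2 - E ^ 2) h2 (by rw [hkey]; ring)
    rcases hk with hk | hk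
    · have e4 : (2 * (2 * ((d : ℝ) - 1)) * ((d : ℝ) ^ 2 - E ^ 2)) =
          (4 * ((d : ℝ) - 1) * ((d : ℝ) ^ 2 - E ^ 2)) := by ring
      rw [e4] at hk
      rw [← hk]
      push_cast
      ring
    · exfalso
      exact h1 (by linarith)
  rw [e3]
  simp only [Complex.add_im, Complex.ofReal_im, Complex.mul_im, Complex.ofReal_re, Complex.I_im,
    Complex.I_re, mul_one, mul_zero, add_zero, zero_add]
  unfold rho
  rw [← hs]
  have h1 : (d : ℝ) - 1 ≠ 0 := by linarith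
  have := Real.pi_ne_zero
  field_simp
  ring

theorem rho_pos' {d : ℕ} (hd : 3 ≤ d) {E : ℝ} (hE : |E| < 2 * Real.sqrt ((d : ℝ) - 1)) :
    0 < rho d E := by
  have hd' : (3 : ℝ) ≤ d := by exact_mod_cast hd
  have hE2 : E ^ 2 < 4 * ((d : ℝ) - 1) := by
    have h1 : |E| ^ 2 < (2 * Real.sqrt ((d : ℝ) - 1)) ^ 2 :=
      pow_lt_pow_left₀ hE (abs_nonneg _) (by norm_num)
    rw [sq_abs, mul_pow, Real.sq_sqrt (by linarith)] at h1
    linarith
  have hdE : 0 < (d : ℝ) ^ 2 - E ^ 2 := by nlinarith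
  have hs : 0 < Real.sqrt (4 * ((d : ℝ) - 1) - E ^ 2) := Real.sqrt_pos.2 (by linarith)
  unfold rho
  have := Real.pi_pos
  positivity

end Vale.Agent.P156.G
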